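import Vale.Agent.P281.H342.NU.Iface2

/-! P281, theorem NU, row N8 (b): the density on the tube is `B det χ` with `B` smooth. -/

open scoped Manifold ContDiff Topology ComplexOrder
open Set Filter MeasureTheory Vale.Agent.P281.J Vale.Agent.P272.K Vale.Agent.P272.K.AMP
open Vale.Agent.P299
open Vale.Agent.P272.K.INT (IsClosedForm)

noncomputable section

namespace Vale.Agent.P281.H717.NU

open Vale.Agent.P281.H342.NU

section lin

variable {n p : ℕ}

/-- `bdet` transforms as a form of top degree -/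
theorem bdet_change (b : Matrix (Fin p) (Fin n) ℂ) (A J : Matrix (Fin n) (Fin n) ℂ) :
    bdet (b * J) (J.transpose * A * J.map (starRingEnd ℂ)) = ‖J.det‖ ^ 2 * bdet b A := by
  have hJ : (J.map (starRingEnd ℂ)).transpose = J.conjTranspose := by
    ext i j; rfl
  have h1 : Matrix.fromBlocks (J.transpose * A * J.map (starRingEnd ℂ)).transpose
      (b * J).conjTranspose (b * J) (0 : Matrix (Fin p) (Fin p) ℂ) =
      Matrix.fromBlocks J.conjTranspose 0 0 1 *
        Matrix.fromBlocks A.transpose b.conjTranspose b 0 * Matrix.fromBlocks J 0 0 1 := by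
    rw [Matrix.fromBlocks_multiply, Matrix.fromBlocks_multiply]
    rw [Matrix.transpose_mul, Matrix.transpose_mul, Matrix.transpose_transpose, hJ,
      Matrix.conjTranspose_mul]
    simp only [Matrix.zero_mul, Matrix.mul_zero, add_zero, zero_add, Matrix.one_mul,
      Matrix.mul_one, Matrix.mul_assoc]
  have h2 : (J.conjTranspose).det * J.det = ((‖J.det‖ ^ 2 : ℝ) : ℂ) := by
    rw [Matrix.det_conjTranspose, mul_comm]
    show J.det * (starRingEnd ℂ) J.det = _
    rw [Complex.mul_conj, Complex.normSq_eq_norm_sq]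
  unfold bdet
  rw [h1, Matrix.det_mul, Matrix.det_mul, Matrix.det_fromBlocks_zero₁₂,
    Matrix.det_fromBlocks_zero₁₂, Matrix.det_one, mul_one, mul_one]
  have h3 : (-1 : ℂ) ^ p * ((J.conjTranspose).det *
      (Matrix.fromBlocks A.transpose b.conjTranspose b 0).det * J.det) =
      ((‖J.det‖ ^ 2 : ℝ) : ℂ) * ((-1) ^ p *
        (Matrix.fromBlocks A.transpose b.conjTranspose b 0).det) := by
    rw [← h2]; ring
  rw [h3, Complex.re_ofReal_mul]

/-- `bdet` is nonnegative on positive matrices -/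
theorem bdet_nonneg (b : Matrix (Fin p) (Fin n) ℂ) {A : Matrix (Fin n) (Fin n) ℂ}
    (hA : A.PosDef) : 0 ≤ bdet b A := by
  have hT : A.transpose.PosDef := hA.transpose
  have hu : IsUnit A.transpose := hT.isUnit
  let _ : Invertible A.transpose := hu.invertible
  have h1 : (Matrix.fromBlocks A.transpose b.conjTranspose b 0).det =
      A.transpose.det * (0 - b * ⅟(A.transpose) * b.conjTranspose).det :=
    Matrix.det_fromBlocks₁₁ _ _ _ _
  have h2 : (0 - b * ⅟(A.transpose) * b.conjTranspose).det =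
      (-1) ^ p * (b * (A.transpose)⁻¹ * b.conjTranspose).det := by
    rw [zero_sub, Matrix.det_neg, Fintype.card_fin, Matrix.invOf_eq_nonsing_inv]
  have h3 : 0 ≤ (b * (A.transpose)⁻¹ * b.conjTranspose).det :=
    ((hT.inv.posSemidef).mul_mul_conjTranspose_same b).det_nonneg
  have h4 : 0 ≤ A.transpose.det := hT.det_pos.le
  have h5 : (-1 : ℂ) ^ p * (Matrix.fromBlocks A.transpose b.conjTranspose b 0).det =
      A.transpose.det * (b * (A.transpose)⁻¹ * b.conjTranspose).det := by
    rw [h1, h2]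
    have h6 : (-1 : ℂ) ^ p * (-1) ^ p = 1 := by
      rw [← mul_pow]; norm_num
    linear_combination (A.transpose.det * (b * (A.transpose)⁻¹ * b.conjTranspose).det) * h6
  unfold bdet
  rw [h5]
  have h7 : 0 ≤ A.transpose.det * (b * (A.transpose)⁻¹ * b.conjTranspose).det := mul_nonneg h4 h3
  exact (Complex.le_def.1 h7).1

theorem det_re_pos {A : Matrix (Fin n) (Fin n) ℂ} (hA : A.PosDef) : 0 < A.det.re :=
  (Complex.lt_def.1 hA.det_pos).1

end lin

section

variable {n p : ℕ} {X : Type} [TopologicalSpace X] [ChartedSpace (Cm n) X]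
  [IsManifold 𝓘(ℂ, Cm n) ω X] {O : Set X} {y : X → Cm p} {W : Set (Cm p)}

/-- `y` in a chart -/
theorem contDiff_y (ht : IsTube (n := n) O y W) {e : Chart n X} {x : X} (hx : At e x)
    (hO : x ∈ O) : ContDiffAt ℂ ω (fun z => y (e.symm z)) (e x) := by
  rw [← contMDiffAt_iff_contDiffAt]
  have h1 := chart_symm_contMDiffAt hx.1 hx.mem_target
  refine ContMDiffAt.comp (e x) (g := y) ?_ h1
  rw [hx.left_inv]
  exact ht.hol x hO

theorem nhds_O (ht : IsTube (n := n) O y W) {e : Chart n X} {x : X} (hx : At e x)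
    (hO : x ∈ O) : ∀ᶠ z in 𝓝 (e x), e.symm z ∈ O := by
  have h := (e.continuousAt_symm hx.mem_target).eventually
    (ht.isOpen.mem_nhds (by rw [hx.left_inv]; exact hO))
  exact h

theorem contDiff_ya (ht : IsTube (n := n) O y W) {e : Chart n X} {x : X} (hx : At e x)
    (hO : x ∈ O) (a : Fin p) : ContDiffAt ℂ ω (fun z => y (e.symm z) a) (e x) :=
  contDiffAt_pi.1 (contDiff_y ht hx hO) a

theorem rowsY_change (ht : IsTube (n := n) O y W) {e e' : Chart n X} {x : X} (hx : At e x)
    (hx' : At e' x) (hO : x ∈ O) :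
    rowsY y e (e x) = rowsY y e' (e' x) * jacM e e' x := by
  have h2 : e' (e.symm (e x)) = e' x := by rw [hx.left_inv]
  ext a i
  have h1 : (fun w => y (e.symm w) a) =ᶠ[𝓝 (e x)]
      fun w => (fun v => y (e'.symm v) a) (e' (e.symm w)) := by
    filter_upwards [hx.nhds_at hx'] with z hz
    rw [hz.2.2.left_inv]
  have hd : DifferentiableAt ℂ (fun w => y (e.symm w) a) (e x) :=
    (contDiff_ya ht hx hO a).differentiableAt (by simp)
  have hd' : DifferentiableAt ℂ (fun w => y (e'.symm w) a) (e' x) :=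
    (contDiff_ya ht hx' hO a).differentiableAt (by simp)
  have h3 : rowsY y e (e x) a i = dz i (fun w => y (e.symm w) a) (e x) :=
    (dz_of_holo hd).symm
  rw [h3, dz_congr h1, dz_comp_holo (f := fun v => y (e'.symm v) a)
    (τ := fun z => e' (e.symm z)) (by rw [h2]; exact hd'.restrictScalars ℝ)
    (transition_differentiableAt hx hx'), Matrix.mul_apply]
  refine Finset.sum_congr rfl fun q _ => ?_
  rw [h2, dz_of_holo hd']
  rfl

theorem smooth_rowsY (ht : IsTube (n := n) O y W) {e : Chart n X} {x : X} (hx : At e x)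
    (hO : x ∈ O) (a : Fin p) (i : Fin n) :
    ContDiffAt ℝ ∞ (fun z => rowsY y e z a i) (e x) := by
  have h1 : ContDiffAt ℂ ω (fderiv ℂ (fun w => y (e.symm w) a)) (e x) :=
    (contDiff_ya ht hx hO a).fderiv_right (by simp)
  have h2 : ContDiffAt ℂ ω (fun z => fderiv ℂ (fun w => y (e.symm w) a) z (Pi.single i 1)) (e x) :=
    h1.clm_apply contDiffAt_const
  exact (h2.restrict_scalars ℝ).of_le (by exact le_top)

theorem contDiffAt_det_gen {ι : Type*} [Fintype ι] [DecidableEq ι] {m : WithTop ℕ∞}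
    {M : Cm n → Matrix ι ι ℂ} {z : Cm n} (h : ∀ i j, ContDiffAt ℝ m (fun y => M y i j) z) :
    ContDiffAt ℝ m (fun y => (M y).det) z := by
  simp only [Matrix.det_apply]
  refine ContDiffAt.sum fun σ _ => ?_
  refine ContDiffAt.const_smul _ ?_
  exact contDiffAt_prod fun i _ => h _ _

theorem smooth_bdet {b : Cm n → Matrix (Fin p) (Fin n) ℂ} {A : Cm n → Matrix (Fin n) (Fin n) ℂ}
    {z : Cm n} (hb : ∀ a i, ContDiffAt ℝ ∞ (fun w => b w a i) z)
    (hA : ∀ i j, ContDiffAt ℝ ∞ (fun w => A w i j) z) :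
    ContDiffAt ℝ ∞ (fun w => bdet (b w) (A w)) z := by
  have hd : ContDiffAt ℝ ∞ (fun w => (Matrix.fromBlocks (A w).transpose (b w).conjTranspose (b w)
      (0 : Matrix (Fin p) (Fin p) ℂ)).det) z := by
    refine contDiffAt_det_gen fun i j => ?_
    rcases i with i | i <;> rcases j with j | j
    · exact hA j i
    · exact Complex.conjCLE.contDiff.contDiffAt.comp z (hb j i)
    · exact hb i j
    · exact contDiffAt_const
  exact Complex.reCLM.contDiff.contDiffAt.comp z (contDiffAt_const.mul hd)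

theorem smooth_det_re {A : Cm n → Matrix (Fin n) (Fin n) ℂ}
    {z : Cm n} (hA : ∀ i j, ContDiffAt ℝ ∞ (fun w => A w i j) z) :
    ContDiffAt ℝ ∞ (fun w => (A w).det.re) z :=
  Complex.reCLM.contDiff.contDiffAt.comp z (contDiffAt_det_gen hA)

/-- `b₀ ∘ y` vanishes near the points off the tube -/
theorem tubeF_off [T2Space X] (ht : IsTube (n := n) O y W) {b₀ : Cm p → ℝ}
    (hc : HasCompactSupport b₀) (hs : tsupport b₀ ⊆ W) {x : X} (hx : x ∉ O) :
    ∀ᶠ z in 𝓝 x, tubeF O y b₀ z = 0 := by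
  have h1 : IsClosed {x | x ∈ O ∧ y x ∈ tsupport b₀} := (ht.proper _ hc hs).isClosed
  filter_upwards [h1.isOpen_compl.mem_nhds (fun h => hx h.1)] with z hz
  unfold tubeF
  split_ifs with h
  · by_contra h0
    exact hz ⟨h, subset_tsupport b₀ h0⟩
  · rfl

theorem tubeF_on {b₀ : Cm p → ℝ} {x : X} (hx : x ∈ O) : tubeF O y b₀ x = b₀ (y x) := by
  unfold tubeF
  rw [if_pos hx]

theorem tubeF_not {b₀ : Cm p → ℝ} {x : X} (hx : x ∉ O) : tubeF O y b₀ x = 0 := by
  unfold tubeF
  rw [if_neg hx]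

/-- the smooth function `B` -/
def Bf (O : Set X) (y : X → Cm p) (b₀ : Cm p → ℝ) (A χ : D.FormM n X) (x : X) : ℝ :=
  tubeF O y b₀ x * bdet (rowsY y (chartAt (Cm n) x) (chartAt (Cm n) x x))
    (A (chartAt (Cm n) x) (chartAt (Cm n) x x)) /
      (χ (chartAt (Cm n) x) (chartAt (Cm n) x x)).det.re

theorem Bf_eq (ht : IsTube (n := n) O y W) (b₀ : Cm p → ℝ) {A χ : D.FormM n X}
    (hχ : IsKahler χ) (hA : IsForm A) {e : Chart n X} {x : X} (hx : At e x) :
    Bf O y b₀ A χ x * (χ e (e x)).det.re =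
      tubeF O y b₀ x * bdet (rowsY y e (e x)) (A e (e x)) := by
  by_cases hO : x ∈ O
  · have h0 : At (chartAt (Cm n) x) x := ⟨chart_mem_atlas _ x, mem_chart_source _ x⟩
    have h1 : (χ e (e x)).det.re = ‖(jacM e (chartAt (Cm n) x) x).det‖ ^ 2 *
        (χ (chartAt (Cm n) x) (chartAt (Cm n) x x)).det.re :=
      det_form_re hχ.change hx h0
    have h2 : bdet (rowsY y e (e x)) (A e (e x)) = ‖(jacM e (chartAt (Cm n) x) x).det‖ ^ 2 *
        bdet (rowsY y (chartAt (Cm n) x) (chartAt (Cm n) x x))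
          (A (chartAt (Cm n) x) (chartAt (Cm n) x x)) := by
      rw [rowsY_change ht hx h0 hO, hA e _ x hx h0, bdet_change]
    have h3 : (χ (chartAt (Cm n) x) (chartAt (Cm n) x x)).det.re ≠ 0 :=
      (det_re_pos (hχ.posDef _ x h0)).ne'
    rw [h1, h2]
    unfold Bf
    field_simp
  · unfold Bf
    rw [tubeF_not hO]
    simp

theorem Bf_smooth [T2Space X] (ht : IsTube (n := n) O y W) {b₀ : Cm p → ℝ}
    (hb : ContDiff ℝ ∞ b₀) (hc : HasCompactSupport b₀) (hs : tsupport b₀ ⊆ W)
    {A χ : D.FormM n X} (hχ : IsKahler χ) (hA : IsClosedForm A) :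
    SmoothFn (n := n) (Bf O y b₀ A χ) := by
  intro e x hx
  by_cases hO : x ∈ O
  · have h1 : (fun z => Bf O y b₀ A χ (e.symm z)) =ᶠ[𝓝 (e x)] fun z =>
        b₀ (y (e.symm z)) * bdet (rowsY y e z) (A e z) / (χ e z).det.re := by
      filter_upwards [hx.nhds_at hx, nhds_O ht hx hO] with z hz hzO
      have h2 := Bf_eq ht b₀ hχ hA.form hz.2.1
      rw [e.right_inv hz.1, tubeF_on hzO] at h2
      have h3 : (χ e z).det.re ≠ 0 := by
        have := det_re_pos (hχ.posDef _ _ hz.2.1)
        rw [e.right_inv hz.1] at this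
        exact this.ne'
      rw [← h2]
      field_simp
    refine ContDiffAt.congr_of_eventuallyEq ?_ h1
    have h4 : ContDiffAt ℝ ∞ (fun z => b₀ (y (e.symm z))) (e x) :=
      hb.contDiffAt.comp (e x) (((contDiff_y ht hx hO).restrict_scalars ℝ).of_le
        (by exact le_top))
    refine (h4.mul (smooth_bdet (smooth_rowsY ht hx hO) (hA.smooth e x hx))).div
      (smooth_det_re (hχ.smooth e x hx)) ?_
    exact (det_re_pos (hχ.posDef _ x hx)).ne'
  · have h1 : (fun z => Bf O y b₀ A χ (e.symm z)) =ᶠ[𝓝 (e x)] fun _ => 0 := by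
      have h2 : ∀ᶠ w in 𝓝 (e.symm (e x)), tubeF O y b₀ w = 0 := by
        rw [hx.left_inv]; exact tubeF_off ht hc hs hO
      filter_upwards [(e.continuousAt_symm hx.mem_target).eventually h2] with z hz
      unfold Bf
      rw [hz]
      simp
    exact contDiffAt_const.congr_of_eventuallyEq h1

end

/-- **Row N8 (b)** -/
theorem bPart : BPart := by
  intro n p X _ _ _ _ _ _ χ hχ O y W ht b₀ hb hc hs hb0 A hA hAh
  refine ⟨Bf O y b₀ A χ, Bf_smooth ht hb hc hs hχ hA, fun e x hx =>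
    Bf_eq ht b₀ hχ hA.form hx, fun hK x => ?_⟩
  have h0 : At (chartAt (Cm n) x) x := ⟨chart_mem_atlas _ x, mem_chart_source _ x⟩
  have h1 : 0 ≤ tubeF O y b₀ x := by
    by_cases hO : x ∈ O
    · rw [tubeF_on hO]; exact hb0 _
    · rw [tubeF_not hO]
  exact div_nonneg (mul_nonneg h1 (bdet_nonneg _ (hK.posDef _ x h0)))
    (det_re_pos (hχ.posDef _ x h0)).le

end Vale.Agent.P281.H717.NU
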